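import Vale.Agent.P203.Unf.FG

/-! P203, block ALG-E, part 1: the framed unfolding graph `unfF M`: the unfolding graph plus one
framing vertex `inr x` joined by one edge to the vertex `inl x`, for every vertex `x` of the
unfolding graph. -/

set_option linter.all false

namespace Vale.Agent.P203.Unf

open Finset

variable {S : Type} (M : CoxeterMatrix S)

/-- vertices of the framed unfolding graph -/
abbrev FVtx : Type := Vtx M ⊕ Vtx M

variable {M}

open scoped Classical in
/-- number of edges of the framed unfolding graph -/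
noncomputable def nadjF : FVtx M → FVtx M → ℕ
  | .inl x, .inl y => nadj x y
  | .inl x, .inr y => if x = y then 1 else 0
  | .inr x, .inl y => if x = y then 1 else 0
  | .inr _, .inr _ => 0

theorem nadjF_symm (x y : FVtx M) : nadjF x y = nadjF y x := by
  rcases x with x | x <;> rcases y with y | y <;> simp only [nadjF]
  · exact nadj_symm x y
  · by_cases h : x = y
    · simp [h]
    · rw [if_neg h, if_neg (Ne.symm h)]
  · by_cases h : x = y
    · simp [h]
    · rw [if_neg h, if_neg (Ne.symm h)]

theorem nadjF_le_two (x y : FVtx M) : nadjF x y ≤ 2 := by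
  rcases x with x | x <;> rcases y with y | y <;> simp only [nadjF]
  · exact nadj_le_two x y
  · split_ifs <;> omega
  · split_ifs <;> omega
  · omega

/-- folding map of the framed unfolding graph -/
def foldF : FVtx M → S ⊕ S
  | .inl x => .inl x.1
  | .inr x => .inr x.1

theorem foldF_ne {x y : FVtx M} (h : nadjF x y ≠ 0) : foldF x ≠ foldF y := by
  rcases x with x | x <;> rcases y with y | y <;> simp only [nadjF, foldF] at h ⊢
  · intro h'
    have h' : x.1 = y.1 := Sum.inl.inj h'
    have h2 : nadj (x.1, x.2) (x.1, y.2) = 0 := nadj_same _ _ _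
    have h3 : y = (x.1, y.2) := Prod.ext h'.symm rfl
    rw [h3] at h
    exact h h2
  · simp
  · simp
  · exact absurd rfl h

variable (M) in
/-- The framed unfolding graph, folded over `S ⊕ S`. -/
noncomputable def unfF : Mod.FGraph (S ⊕ S) (FVtx M) (Fin 2) where
  π := foldF
  adj x y l := decide ((l : ℕ) < nadjF x y)
  symm {x y l} h := by rw [nadjF_symm]; exact h
  indep {x y l} h := by
    have h1 : (l : ℕ) < nadjF x y := of_decide_eq_true h
    exact foldF_ne (by omega)

@[simp] theorem unfF_π_inl (x : Vtx M) : (unfF M).π (.inl x) = .inl x.1 := rfl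
@[simp] theorem unfF_π_inr (x : Vtx M) : (unfF M).π (.inr x) = .inr x.1 := rfl

theorem unfF_adj (x y : FVtx M) (l : Fin 2) :
    (unfF M).adj x y l = true ↔ (l : ℕ) < nadjF x y := by
  simp [unfF]

/-- the darts from `x` to `y` -/
noncomputable def dartEquiv (x y : FVtx M) :
    {p : (unfF M).Nb x // p.1.1 = y} ≃ Fin (nadjF x y) where
  toFun p := ⟨p.1.1.2, by
    have h := (unfF_adj _ _ _).1 p.1.2
    rwa [p.2] at h⟩
  invFun c := ⟨⟨(y, ⟨c, lt_of_lt_of_le c.2 (nadjF_le_two _ _)⟩), (unfF_adj _ _ _).2 c.2⟩, rfl⟩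
  left_inv := by
    rintro ⟨⟨⟨y, c⟩, h⟩, h1⟩
    simp only at h1
    subst h1
    rfl
  right_inv c := rfl

/-- summing a function of the target over the darts starting at `x` -/
theorem sum_Nb [Fintype (FVtx M)] [DecidableEq (FVtx M)] {A : Type*} [AddCommMonoid A]
    (x : FVtx M) (F : FVtx M → A) :
    ∑ p : (unfF M).Nb x, F p.1.1 = ∑ y : FVtx M, nadjF x y • F y := by
  classical
  rw [← Finset.sum_fiberwise_of_maps_to (s := (univ : Finset ((unfF M).Nb x)))
    (t := (univ : Finset (FVtx M))) (g := fun p => p.1.1) (fun a _ => mem_univ _)]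
  refine Finset.sum_congr rfl fun y _ => ?_
  have h1 : ∀ p ∈ (univ : Finset ((unfF M).Nb x)).filter (fun p => p.1.1 = y),
      F p.1.1 = F y := by
    intro p hp
    rw [mem_filter] at hp
    rw [hp.2]
  rw [Finset.sum_congr rfl h1, Finset.sum_const, ← Fintype.card_subtype,
    Fintype.card_congr (dartEquiv x y), Fintype.card_fin]

theorem unfF_card_zero (x y : Vtx M) (h : nadj x y = 0) (l : Fin 2) :
    (unfF M).adj (.inl x) (.inl y) l = false := by
  rw [← Bool.not_eq_true, unfF_adj]
  simp [nadjF, h]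

theorem unfF_card_one (x y : Vtx M) (h : nadj x y = 1) :
    (unfF M).adj (.inl x) (.inl y) 0 = true ∧ (unfF M).adj (.inl x) (.inl y) 1 = false := by
  rw [← Bool.not_eq_true, unfF_adj, unfF_adj]
  simp [nadjF, h]

theorem sum_univ_any {α β : Type*} [AddCommMonoid β] (i1 i2 : Fintype α) (f : α → β) :
    @Finset.sum α β _ (@Finset.univ α i1) f = @Finset.sum α β _ (@Finset.univ α i2) f := by
  rw [Subsingleton.elim i1 i2]

/-- Weighted sum over all darts starting in the fibre of `r`: the neighbours of type `t` count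
`c_rt`. -/
theorem sum_eta_Nb [Fintype S] [DecidableEq S] [Fintype (FVtx M)] [Fintype (Idx M)]
    [Fintype (Sym2 S)] [DecidableEq (FVtx M)] (r : S) (F : FVtx M → ℝ) :
    ∑ i : Idx M, eta i * ∑ p : (unfF M).Nb (.inl (r, i)), F p.1.1 =
      ∑ i : Idx M, eta i * F (.inr (r, i)) +
        ∑ t ∈ univ.erase r, cst M r t * ∑ j : Idx M, eta j * F (.inl (t, j)) := by
  classical
  have h1 : ∀ i : Idx M, ∑ p : (unfF M).Nb (.inl (r, i)), F p.1.1 =
      F (.inr (r, i)) + ∑ t ∈ univ.erase r, ∑ j : Idx M, (nadj (r, i) (t, j) : ℝ) * F (.inl (t, j)) := by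
    intro i
    rw [sum_Nb]
    simp only [nsmul_eq_mul]
    have e1 : ∀ G : FVtx M → ℝ, ∑ y : FVtx M, G y = ∑ y : Vtx M, G (.inl y) + ∑ y : Vtx M, G (.inr y) := by
      intro G
      exact (sum_univ_any _ _ G).trans (Fintype.sum_sum_type G)
    rw [e1, add_comm]
    congr 1
    · rw [Finset.sum_eq_single (r, i)]
      · simp [nadjF]
      · intro y _ hy
        have : ¬ ((r, i) = y) := fun h => hy h.symm
        simp [nadjF, this]
      · intro h; exact absurd (mem_univ _) h
    · rw [Fintype.sum_prod_type]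
      rw [← Finset.add_sum_erase univ _ (mem_univ r)]
      have : ∑ j : Idx M, ((nadjF (M := M) (.inl (r, i)) (.inl (r, j)) : ℕ) : ℝ) * F (.inl (r, j)) = 0 := by
        refine Finset.sum_eq_zero fun j _ => ?_
        simp [nadjF, nadj_same]
      rw [this, zero_add]
      rfl
  simp only [h1, mul_add]
  rw [Finset.sum_add_distrib]
  congr 1
  simp only [Finset.mul_sum]
  rw [Finset.sum_comm]
  refine Finset.sum_congr rfl fun t ht => ?_
  rw [Finset.sum_comm]
  refine Finset.sum_congr rfl fun j _ => ?_
  have hrt : t ≠ r := Finset.ne_of_mem_erase ht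
  have h2 := sum_nadj_eta (M := M) hrt j
  have h3 : cst M r t = cst M t r := by unfold cst; rw [M.symmetric r t]
  rw [h3, ← mul_assoc, ← h2, Finset.sum_mul]
  refine Finset.sum_congr rfl fun i _ => ?_
  rw [nadj_symm (t, j) (r, i)]
  ring

end Vale.Agent.P203.Unf
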