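import Vale.Agent.P203.Unf.FProd
import Mathlib.Data.Sym.Sym2
import Mathlib.GroupTheory.Coxeter.Matrix

/-! P203, block ALG-UNF, part 3: the unfolding graph `S × Idx M` of a Coxeter matrix and the
monoid-level theorem: a family `f` of elements of a monoid indexed by the vertices of the unfolding
graph which satisfies the simply laced Artin relations (`Commute` for non adjacent vertices, braid
relation for vertices joined by exactly one edge) gives, by taking the products over the fibres,
elements `FF f s` satisfying the relations of the Artin group of `M`.  Main theorem: `fold_rel`. -/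

set_option linter.all false

namespace Vale.Agent.P203.Unf

open Finset

variable {S : Type*} (M : CoxeterMatrix S)

/-- `m_e - 2` for `3 ≤ m_e < ∞`, and `0` otherwise. -/
def mm (e : Sym2 S) : ℕ :=
  Sym2.lift ⟨fun s t => M s t - 2, fun s t => by
    show M s t - 2 = M t s - 2
    rw [M.symmetric s t]⟩ e

@[simp] theorem mm_mk (s t : S) : mm M s(s, t) = M s t - 2 := rfl

/-- the index set of the unfolding: one coordinate with `m_e - 1` values for each pair `e` with
`3 ≤ m_e < ∞` (and a coordinate with one value for the other `e`). -/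
abbrev Idx : Type _ := ∀ e : Sym2 S, Fin (mm M e + 1)

variable {M}

/-- `i` and `j` agree except at `e`, where they differ by exactly one. -/
def Adj1 (e : Sym2 S) (i j : Idx M) : Prop :=
  (∀ e', e' ≠ e → i e' = j e') ∧ ((i e : ℕ) + 1 = j e ∨ (j e : ℕ) + 1 = i e)

theorem Adj1.symm {e : Sym2 S} {i j : Idx M} (h : Adj1 e i j) : Adj1 e j i :=
  ⟨fun e' he' => (h.1 e' he').symm, h.2.symm⟩

open scoped Classical in
/-- the number of edges between two vertices of the unfolding graph. -/
noncomputable def nadj (x y : S × Idx M) : ℕ :=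
  if M x.1 y.1 = 0 then (if x.2 = y.2 then 2 else 0)
  else if Adj1 s(x.1, y.1) x.2 y.2 then 1 else 0

theorem nadj_symm (x y : S × Idx M) : nadj x y = nadj y x := by
  classical
  unfold nadj
  rw [M.symmetric x.1 y.1, show s(x.1, y.1) = s(y.1, x.1) from Sym2.eq_swap]
  have h1 : (x.2 = y.2) ↔ (y.2 = x.2) := eq_comm
  have h2 : Adj1 s(y.1, x.1) x.2 y.2 ↔ Adj1 s(y.1, x.1) y.2 x.2 := ⟨Adj1.symm, Adj1.symm⟩
  simp only [h1, h2]

theorem nadj_lt (x y : S × Idx M) : nadj x y ≤ 2 := by
  classical
  unfold nadj; split_ifs <;> simp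

theorem nadj_same (s : S) (i j : Idx M) : nadj (s, i) (s, j) = 0 := by
  classical
  have h : ¬ Adj1 s(s, s) i j := by
    rintro ⟨-, h⟩
    have h1 := (i s(s, s)).isLt
    have h2 := (j s(s, s)).isLt
    simp only [mm_mk, M.diagonal] at h1 h2
    omega
  simp [nadj, M.diagonal, h]

theorem nadj_eq_zero_of {s t : S} {i j : Idx M} (hst : M s t ≠ 0)
    (h : ¬ ((i s(s, t) : ℕ) + 1 = j s(s, t) ∨ (j s(s, t) : ℕ) + 1 = i s(s, t))) :
    nadj (s, i) (t, j) = 0 := by
  classical
  have h : ¬ Adj1 s(s, t) i j := fun h' => h h'.2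
  simp [nadj, hst, h]

theorem nadj_eq_one {s t : S} {i j : Idx M} (hst : M s t ≠ 0) (h : Adj1 s(s, t) i j) :
    nadj (s, i) (t, j) = 1 := by
  classical
  simp [nadj, hst, h]

theorem nadj_eq_zero_of_rest {s t : S} {i j : Idx M} (hst : M s t ≠ 0) {e : Sym2 S}
    (he : e ≠ s(s, t)) (h : i e ≠ j e) : nadj (s, i) (t, j) = 0 := by
  classical
  have h : ¬ Adj1 s(s, t) i j := fun h' => h (h'.1 e he)
  simp [nadj, hst, h]

section

variable {G : Type*} [Monoid G]

/-- The relations of the simply laced Artin group of the unfolding graph. -/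
structure SLRel (f : S × Idx M → G) : Prop where
  comm : ∀ x y, nadj x y = 0 → Commute (f x) (f y)
  braid : ∀ x y, nadj x y = 1 → f x * f y * f x = f y * f x * f y

variable [Fintype (Idx M)]

/-- the product of the `f (s, i)` over all `i`. -/
noncomputable def FF (f : S × Idx M → G) (s : S) : G := fprod Finset.univ fun i => f (s, i)

open scoped Classical in
/-- the product over the `i` with `e`-th coordinate `a` (coordinates counted from `1`). -/
noncomputable def QQ (f : S × Idx M → G) (e : Sym2 S) (s : S) (a : ℕ) : G :=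
  fprod {i : Idx M | (i e : ℕ) + 1 = a} fun i => f (s, i)

open scoped Classical in
/-- the product over the `i` with `e`-th coordinate `≤ n` and `≡ n` mod 2. -/
noncomputable def PP (f : S × Idx M → G) (e : Sym2 S) (s : S) (n : ℕ) : G :=
  fprod {i : Idx M | (i e : ℕ) + 1 ≤ n ∧ ((i e : ℕ) + 1) % 2 = n % 2} fun i => f (s, i)

variable {f : S × Idx M → G} (hf : SLRel f)
include hf

theorem SLRel.same (s : S) (i j : Idx M) : Commute (f (s, i)) (f (s, j)) :=
  hf.comm _ _ (nadj_same s i j)

theorem PP_add_two (e : Sym2 S) (s : S) (n : ℕ) :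
    PP f e s (n + 2) = PP f e s n * QQ f e s (n + 2) := by
  classical
  unfold PP QQ
  rw [← fprod_union]
  · congr 1
    ext i
    simp only [mem_filter, mem_univ, true_and, mem_union]
    omega
  · rw [Finset.disjoint_left]
    intro i hi hj
    simp only [mem_filter, mem_univ, true_and] at hi hj
    omega
  · exact fun i _ j _ => hf.same s i j

theorem E_QQ (e : Sym2 S) (c : ℕ → S) (hc : ∀ n, c (n + 2) = c n) (n : ℕ) :
    E (fun a => QQ f e (c a) a) n = PP f e (c n) n := by
  induction n using Nat.twoStepInduction with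
  | zero => simp [E, PP, fprod_empty]
  | one =>
    simp only [E, PP, QQ]
    congr 1
    ext i
    simp only [mem_filter, mem_univ, true_and]
    omega
  | more n ih _ =>
    rw [E_add_two, ih, hc n, PP_add_two hf]

theorem FF_eq (e : Sym2 S) (s : S) (n : ℕ) (hn : n = mm M e + 1) :
    FF f s = PP f e s n * PP f e s (n - 1) := by
  classical
  unfold PP FF
  rw [← fprod_union]
  · congr 1
    ext i
    have := (i e).isLt
    simp only [mem_filter, mem_univ, true_and, mem_union, true_iff]
    subst hn
    rcases Nat.mod_two_eq_zero_or_one ((i e : ℕ) + 1) with h1 | h1 <;>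
    rcases Nat.mod_two_eq_zero_or_one (mm M e + 1) with h2 | h2 <;>
    omega
  · rw [Finset.disjoint_left]
    intro i hi hj
    simp only [mem_filter, mem_univ, true_and] at hi hj
    omega
  · exact fun i _ j _ => hf.same s i j

theorem QQ_comm {s t : S} (hst : M s t ≠ 0) {a b : ℕ}
    (h : ¬ (a + 1 = b ∨ b + 1 = a)) : Commute (QQ f s(s, t) s a) (QQ f s(s, t) t b) := by
  classical
  unfold QQ
  apply fprod_commute
  intro i hi j hj
  simp only [mem_filter, mem_univ, true_and] at hi hj
  exact hf.comm _ _ (nadj_eq_zero_of hst (by omega))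

theorem QQ_comm_same (e : Sym2 S) (s : S) (a b : ℕ) : Commute (QQ f e s a) (QQ f e s b) :=
  fprod_commute fun i _ j _ => hf.same s i j

omit hf in
theorem fprod_image {ι κ : Type*} [DecidableEq κ] {T : Finset ι} (g : ι → κ)
    (hg : Set.InjOn g T) (f : κ → G)
    (h : ∀ i ∈ T, ∀ j ∈ T, Commute (f (g i)) (f (g j))) :
    fprod (T.image g) f = fprod T fun i => f (g i) := by
  have h1 : ∀ i ∈ T.image g, ∀ j ∈ T.image g, Commute (f i) (f j) := by
    intro i hi j hj
    simp only [Finset.mem_image] at hi hj
    obtain ⟨i, hi, rfl⟩ := hi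
    obtain ⟨j, hj, rfl⟩ := hj
    exact h i hi j hj
  rw [fprod_eq _ _ (pairwise_of h1), fprod_eq T (fun i => f (g i)) (pairwise_of h)]
  unfold Finset.noncommProd
  simp only [Finset.image_val_of_injOn hg, Multiset.map_map, Function.comp_def]

theorem QQ_braid {s t : S} (hst : M s t ≠ 0) {a : ℕ} (ha : 1 ≤ a)
    (ha2 : a ≤ mm M s(s, t)) :
    QQ f s(s, t) s a * QQ f s(s, t) t (a + 1) * QQ f s(s, t) s a =
      QQ f s(s, t) t (a + 1) * QQ f s(s, t) s a * QQ f s(s, t) t (a + 1) := by
  classical
  set e := s(s, t) with he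
  set T : Finset (Idx M) := {i : Idx M | (i e : ℕ) + 1 = a} with hT
  let g : Idx M → Idx M := fun i => Function.update i e ⟨a, by omega⟩
  have hg : Set.InjOn g T := by
    intro i hi j hj hij
    simp only [hT, coe_filter, mem_univ, true_and, Set.mem_setOf_eq] at hi hj
    funext e'
    by_cases h : e' = e
    · subst h; apply Fin.ext; omega
    · have := congrFun hij e'
      simpa [g, Function.update_of_ne h] using this
  have himg : ({i : Idx M | (i e : ℕ) + 1 = a + 1} : Finset (Idx M)) = T.image g := by
    ext j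
    simp only [mem_filter, mem_univ, true_and, mem_image, hT]
    constructor
    · intro hj
      refine ⟨Function.update j e ⟨a - 1, by omega⟩, ?_, ?_⟩
      · simp; omega
      · simp only [g, Function.update_idem]
        funext e'
        by_cases h : e' = e
        · subst h; apply Fin.ext; simp; omega
        · simp [Function.update_of_ne h]
    · rintro ⟨i, hi, rfl⟩
      simp [g]
  have hQ : QQ f e t (a + 1) = fprod T fun i => f (t, g i) := by
    unfold QQ
    rw [himg, fprod_image g hg _ fun i _ j _ => hf.same t _ _]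
  have hQ0 : QQ f e s a = fprod T fun i => f (s, i) := rfl
  have hadj : ∀ i ∈ T, nadj (s, i) (t, g i) = 1 := by
    intro i hi
    simp only [hT, mem_filter, mem_univ, true_and] at hi
    refine nadj_eq_one hst ⟨fun e' he' => ?_, ?_⟩
    · rw [← he] at he'
      simp [g, Function.update_of_ne he']
    · left; rw [← he]; simp only [g, Function.update_self]; omega
  have hnadj : ∀ i ∈ T, ∀ j ∈ T, i ≠ j → nadj (s, i) (t, g j) = 0 := by
    intro i hi j hj hij
    simp only [hT, mem_filter, mem_univ, true_and] at hi hj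
    obtain ⟨e', he'⟩ := Function.ne_iff.mp hij
    have hne : e' ≠ e := by
      rintro rfl
      exact he' (Fin.ext (by omega))
    refine nadj_eq_zero_of_rest hst hne ?_
    simp only [g, Function.update_of_ne hne]
    exact he'
  have h1 := alt_fprod (T := T) (f := fun i => f (s, i)) (g := fun i => f (t, g i))
    (fun i _ j _ => hf.same s i j) (fun i _ j _ => hf.same t _ _)
    (fun i hi j hj hij => (hf.comm _ _ (hnadj j hj i hi (Ne.symm hij))).symm) 3
  have h2 := alt_fprod (T := T) (g := fun i => f (s, i)) (f := fun i => f (t, g i))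
    (fun i _ j _ => hf.same t _ _) (fun i _ j _ => hf.same s i j)
    (fun i hi j hj hij => hf.comm _ _ (hnadj i hi j hj hij)) 3
  have h3 : (fprod T fun i => alt (f (s, i)) (f (t, g i)) 3) =
      fprod T fun i => alt (f (t, g i)) (f (s, i)) 3 := by
    apply fprod_congr
    intro i hi
    have := hf.braid _ _ (hadj i hi)
    simp only [alt, mul_one, ← mul_assoc]
    exact this
  rw [hQ, hQ0]
  rw [h3, ← h2] at h1
  simpa only [alt, mul_one, ← mul_assoc] using h1

/-- the two colourings. -/
theorem braidA_QQ {s t : S} (hst : M s t ≠ 0) (hne : s ≠ t) (c : ℕ → S)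
    (hc : ∀ n, (c n = s ∧ c (n + 1) = t) ∨ (c n = t ∧ c (n + 1) = s)) (n : ℕ)
    (hn : n = mm M s(s, t) + 1) :
    BraidA (fun a => QQ f s(s, t) (c a) a) n where
  comm := by
    intro i j h1 h2 h3
    have hts : M t s ≠ 0 := by rwa [M.symmetric t s]
    rcases hc i with ⟨hi, -⟩ | ⟨hi, -⟩ <;> rcases hc j with ⟨hj, -⟩ | ⟨hj, -⟩ <;>
      simp only [hi, hj]
    · exact QQ_comm_same hf _ _ _ _
    · exact QQ_comm hf hst (by omega)
    · have := QQ_comm hf hts (a := i) (b := j) (by omega)
      rwa [show s(t, s) = s(s, t) from Sym2.eq_swap] at this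
    · exact QQ_comm_same hf _ _ _ _
  braid := by
    intro i h1 h2
    have hts : M t s ≠ 0 := by rwa [M.symmetric t s]
    rcases hc i with ⟨hi, hi'⟩ | ⟨hi, hi'⟩ <;> simp only [hi, hi']
    · exact QQ_braid hf hst h1 (by omega)
    · have := QQ_braid hf hts h1 (by rw [show s(t, s) = s(s, t) from Sym2.eq_swap]; omega)
      rwa [show s(t, s) = s(s, t) from Sym2.eq_swap] at this

/-- The products over the fibres satisfy the relations of the Artin group of `M`. -/
theorem fold_rel (s t : S) (hst : M s t ≠ 0) :
    alt (FF f s) (FF f t) (M s t) = alt (FF f t) (FF f s) (M s t) := by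
  classical
  by_cases hne : s = t
  · subst hne; rfl
  have hm1 : M s t ≠ 1 := M.off_diagonal s t hne
  set n := M s t - 1 with hn
  have hn1 : M s t = n + 1 := by omega
  have hnm : n = mm M s(s, t) + 1 := by simp only [mm_mk]; omega
  set e := s(s, t) with he
  let c : ℕ → S := fun a => if a % 2 = n % 2 then s else t
  let c' : ℕ → S := fun a => if a % 2 = n % 2 then t else s
  have hc2 : ∀ a, c (a + 2) = c a := fun a => by simp [c]
  have hc2' : ∀ a, c' (a + 2) = c' a := fun a => by simp [c']
  have hcc : ∀ a, (c a = s ∧ c (a + 1) = t) ∨ (c a = t ∧ c (a + 1) = s) := by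
    intro a
    by_cases h : a % 2 = n % 2
    · left; exact ⟨if_pos h, if_neg (by omega)⟩
    · right; exact ⟨if_neg h, if_pos (by omega)⟩
  have hcc' : ∀ a, (c' a = s ∧ c' (a + 1) = t) ∨ (c' a = t ∧ c' (a + 1) = s) := by
    intro a
    by_cases h : a % 2 = n % 2
    · right; exact ⟨if_pos h, if_neg (by omega)⟩
    · left; exact ⟨if_neg h, if_pos (by omega)⟩
  have hcn : c n = s := if_pos rfl
  have hcn1 : c (n - 1) = t := if_neg (by omega)
  have hcn' : c' n = t := if_pos rfl
  have hcn1' : c' (n - 1) = s := if_neg (by omega)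
  set x : ℕ → G := fun a => QQ f e (c a) a with hx
  set y : ℕ → G := fun a => QQ f e (c' a) a with hy
  have hX : BraidA x n := braidA_QQ hf hst hne c hcc n hnm
  have hY : BraidA y n := braidA_QQ hf hst hne c' hcc' n hnm
  have ex : ∀ k, E x k = PP f e (c k) k := E_QQ hf e c hc2
  have ey : ∀ k, E y k = PP f e (c' k) k := E_QQ hf e c' hc2'
  have hxy : ∀ a b, Commute (x a) (y b) := by
    intro a b
    have hts : M t s ≠ 0 := by rwa [M.symmetric t s]
    by_cases h : a % 2 = b % 2
    · have hab : ¬ (a + 1 = b ∨ b + 1 = a) := by omega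
      by_cases h' : a % 2 = n % 2
      · have e1 : c a = s := if_pos h'
        have e2 : c' b = t := if_pos (by omega)
        simp only [hx, hy, e1, e2]
        exact QQ_comm hf hst hab
      · have e1 : c a = t := if_neg h'
        have e2 : c' b = s := if_neg (by omega)
        simp only [hx, hy, e1, e2]
        have := QQ_comm hf hts hab
        rwa [show s(t, s) = s(s, t) from Sym2.eq_swap] at this
    · by_cases h' : a % 2 = n % 2
      · have e1 : c a = s := if_pos h'
        have e2 : c' b = s := if_neg (by omega)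
        simp only [hx, hy, e1, e2]
        exact QQ_comm_same hf _ _ _ _
      · have e1 : c a = t := if_neg h'
        have e2 : c' b = t := if_pos (by omega)
        simp only [hx, hy, e1, e2]
        exact QQ_comm_same hf _ _ _ _
  have hEE : ∀ k l, Commute (E x k) (E y l) := by
    intro k l
    refine commute_E_of hX k _ fun i _ _ => ?_
    exact (commute_E_of hY l _ fun j _ _ => (hxy i j).symm).symm
  have hFs : FF f s = E x n * E y (n - 1) := by
    rw [ex, ey, hcn, hcn1', FF_eq hf e s n hnm]
  have hFt : FF f t = E x (n - 1) * E y n := by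
    rw [(hEE _ _).eq, ex, ey, hcn1, hcn', FF_eq hf e t n hnm]
  rw [hFs, hFt, hn1, alt_mul (hEE _ _) (hEE _ _) (hEE _ _) (hEE _ _),
    alt_mul (hEE _ _) (hEE _ _) (hEE _ _) (hEE _ _), bip hX, bip hY]

end

end Vale.Agent.P203.Unf
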