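import Vale.Agent.P203.Defs
import Vale.Agent.P203.Unf.Graph

/-! P203, block ALG-UNF, part 5: the homomorphism from the Artin group of `M` defined by a family
satisfying the relations of the simply laced Artin group of the unfolding graph. -/

set_option linter.all false

namespace Vale.Agent.P203.Unf

open Finset CoxeterSystem

section words

variable {S : Type*} {G : Type*} [Monoid G]

/-- Mathlib's `alternatingWord s t k` ends with `t`. -/
theorem prod_alternatingWord (f : S → G) (s t : S) (k : ℕ) :
    ((alternatingWord s t k).map f).prod =
      if Even k then alt (f s) (f t) k else alt (f t) (f s) k := by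
  induction k generalizing s t with
  | zero => simp [alternatingWord, alt]
  | succ k ih =>
    rw [alternatingWord, List.concat_eq_append, List.map_append, List.prod_append, ih t s]
    by_cases h : Even k
    · simp [h, Nat.even_add_one, alt_succ']
    · simp [h, Nat.even_add_one, alt_succ']

end words

variable {S : Type} {M : CoxeterMatrix S} [Fintype (Idx M)] {G : Type*}

theorem alternatingWord_FF [Monoid G] {f : S × Idx M → G} (hf : SLRel f) (s t : S)
    (hst : M s t ≠ 0) :
    ((alternatingWord s t (M s t)).map (FF f)).prod =
      ((alternatingWord t s (M s t)).map (FF f)).prod := by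
  rw [prod_alternatingWord, prod_alternatingWord]
  split_ifs
  · exact fold_rel hf s t hst
  · exact (fold_rel hf s t hst).symm

/-- The homomorphism `A_M → G`, `σ_s ↦ ∏_i f (s, i)`. -/
noncomputable def toHom [Group G] {f : S × Idx M → G} (hf : SLRel f) : ArtinGroup M →* G :=
  PresentedGroup.toGroup (f := FF f) (by
    rintro r ⟨s, t, h, rfl⟩
    rw [map_mul, map_inv, mul_inv_eq_one, map_list_prod, map_list_prod, List.map_map, List.map_map]
    have e : (⇑(FreeGroup.lift (FF f)) ∘ FreeGroup.of) = FF f := by
      funext s; simp
    rw [e]
    exact alternatingWord_FF hf s t h)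

theorem toHom_gen [Group G] {f : S × Idx M → G} (hf : SLRel f) (s : S) :
    toHom hf (artinGen M s) = FF f s := by
  simp only [toHom, artinGen, PresentedGroup.toGroup.of]

/-- `FF f s` as a product over a list without repetitions containing all indices. -/
theorem FF_eq_list [Monoid G] {f : S × Idx M → G} (hf : SLRel f) (s : S) :
    FF f s = ((Finset.univ : Finset (Idx M)).toList.map fun i => f (s, i)).prod := rfl

/-- ... and the order of the factors does not matter. -/
theorem FF_eq_list' [Monoid G] {f : S × Idx M → G} (hf : SLRel f) (s : S) (l : List (Idx M))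
    (hl : l.Nodup) (hl2 : ∀ i, i ∈ l) : FF f s = (l.map fun i => f (s, i)).prod := by
  classical
  have h1 : l.Perm (Finset.univ : Finset (Idx M)).toList := by
    rw [List.perm_ext_iff_of_nodup hl (Finset.nodup_toList _)]
    simp [hl2]
  rw [FF_eq_list hf]
  symm
  apply List.Perm.prod_eq' (h1.map _)
  rw [List.pairwise_map]
  exact List.Pairwise.imp_of_mem (fun _ _ _ => hf.same s _ _) (List.pairwise_of_forall (R := fun _ _ => True) fun _ _ => trivial)

end Vale.Agent.P203.Unf
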