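import Mathlib.GroupTheory.Coxeter.Basic
import Mathlib.Tactic

/-! P203, block ALG-UNF, part 1: the bipartite identity `X Y X ... = Y X Y ...` (`n + 1` factors
on both sides) for elements `x 1, ..., x n` of a monoid satisfying the braid relations of type
`A_n`, `X` = product of the `x i` with `i ≡ n`, `Y` = product of the `x i` with `i ≡ n - 1`
modulo 2.  Main theorem: `bip`. -/

set_option linter.all false

namespace Vale.Agent.P203.Unf

variable {G : Type*} [Monoid G]

/-- `E x n = ⋯ x (n-4) * x (n-2) * x n`, all indices `≥ 1`. -/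
def E (x : ℕ → G) : ℕ → G
  | 0 => 1
  | 1 => x 1
  | (n + 2) => E x n * x (n + 2)

/-- `F x a l = x a * x (a+2) * ⋯ * x (a+2(l-1))`. -/
def F (x : ℕ → G) (a : ℕ) : ℕ → G
  | 0 => 1
  | (l + 1) => F x a l * x (a + 2 * l)

/-- `dl x n k = x n * x (n-1) * ⋯ * x (n+1-k)`. -/
def dl (x : ℕ → G) (n : ℕ) : ℕ → G
  | 0 => 1
  | (k + 1) => dl x n k * x (n - k)

/-- alternating product with `k` factors starting with `a`: `a b a ⋯`. -/
def alt (a b : G) : ℕ → G
  | 0 => 1
  | (k + 1) => a * alt b a k

theorem alt_zero (a b : G) : alt a b 0 = 1 := rfl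
theorem alt_succ (a b : G) (k : ℕ) : alt a b (k + 1) = a * alt b a k := rfl

/-- the last factor of `alt a b (k+1)` is `a` for `k` even, `b` for `k` odd. -/
theorem alt_succ' (a b : G) (k : ℕ) :
    alt a b (k + 1) = alt a b k * (if Even k then a else b) := by
  induction k generalizing a b with
  | zero => simp [alt]
  | succ k ih =>
    rw [alt_succ, ih, alt_succ a b k, mul_assoc]
    by_cases h : Even k
    · simp [h, Nat.even_add_one]
    · simp [h, Nat.even_add_one]

/-- The braid relations of type `A_n` for `x 1, ..., x n`. -/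
structure BraidA (x : ℕ → G) (n : ℕ) : Prop where
  comm : ∀ i j, 1 ≤ i → i + 2 ≤ j → j ≤ n → Commute (x i) (x j)
  braid : ∀ i, 1 ≤ i → i + 1 ≤ n → x i * x (i + 1) * x i = x (i + 1) * x i * x (i + 1)

theorem BraidA.mono {x : ℕ → G} {n m : ℕ} (h : BraidA x n) (hm : m ≤ n) : BraidA x m :=
  ⟨fun i j h1 h2 h3 => h.comm i j h1 h2 (h3.trans hm),
    fun i h1 h2 => h.braid i h1 (h2.trans hm)⟩

theorem E_add_two (x : ℕ → G) (n : ℕ) : E x (n + 2) = E x n * x (n + 2) := by
  rw [E]

theorem E_pred (x : ℕ → G) (n : ℕ) (hn : 1 ≤ n) : E x n = E x (n - 2) * x n := by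
  rcases n with _ | _ | n
  · omega
  · simp [E]
  · simp [E]

theorem E_add_two_mul (x : ℕ → G) (a l : ℕ) : E x (a + 2 * l) = E x a * F x (a + 2) l := by
  induction l with
  | zero => simp [F]
  | succ l ih =>
    rw [show a + 2 * (l + 1) = (a + 2 * l) + 2 by ring, E_add_two, ih, F, mul_assoc,
      show a + 2 * l + 2 = a + 2 + 2 * l by ring]

theorem F_one (x : ℕ → G) (l : ℕ) : F x 1 (l + 1) = E x (2 * l + 1) := by
  induction l with
  | zero => simp [F, E]
  | succ l ih =>
    rw [F, ih, show 2 * (l + 1) + 1 = (2 * l + 1) + 2 by ring, E_add_two,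
      show 1 + 2 * (l + 1) = 2 * l + 1 + 2 by ring]

section

variable {x : ℕ → G} {n : ℕ} (h : BraidA x n)
include h

theorem commute_x_dl (i k : ℕ) (hi : 1 ≤ i) (hik : i + k + 1 ≤ n) :
    Commute (x i) (dl x n k) := by
  induction k with
  | zero => exact Commute.one_right _
  | succ k ih =>
    rw [dl]
    exact (ih (by omega)).mul_right (h.comm i (n - k) hi (by omega) (by omega))

theorem commute_E_of (a : ℕ) (g : G) (hg : ∀ i, 1 ≤ i → i ≤ a → Commute (x i) g) :
    Commute (E x a) g := by
  induction a using Nat.twoStepInduction with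
  | zero => exact Commute.one_left _
  | one => exact hg 1 le_rfl le_rfl
  | more a ih _ =>
    rw [E_add_two]
    exact (ih fun i h1 h2 => hg i h1 (by omega)).mul_left (hg _ (by omega) le_rfl)

theorem commute_E_dl (a k : ℕ) (hak : a = 0 ∨ a + k + 1 ≤ n) : Commute (E x a) (dl x n k) := by
  rcases hak with rfl | hak
  · exact Commute.one_left _
  · exact commute_E_of h a _ fun i h1 h2 => commute_x_dl h i k h1 (by omega)

theorem commute_x_F (i b l : ℕ) (hi : 1 ≤ i) (hib : i + 2 ≤ b) (hl : b + 2 * l ≤ n + 2) :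
    Commute (x i) (F x b l) := by
  induction l with
  | zero => exact Commute.one_right _
  | succ l ih =>
    rw [F]
    exact (ih (by omega)).mul_right (h.comm i _ hi (by omega) (by omega))

theorem commute_E_F (a b l : ℕ) (hab : a = 0 ∨ a + 2 ≤ b) (hl : b + 2 * l ≤ n + 2) :
    Commute (E x a) (F x b l) := by
  rcases hab with rfl | hab
  · exact Commute.one_left _
  · exact commute_E_of h a _ fun i h1 h2 => commute_x_F h i b l h1 (by omega) hl

theorem dl_mul_x (k i : ℕ) (hk : k ≤ n) (h1 : n + 2 ≤ i + k) (h2 : i ≤ n) :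
    dl x n k * x i = x (i - 1) * dl x n k := by
  induction k using Nat.strong_induction_on generalizing i with
  | _ k ih =>
  rcases k with _ | k
  · omega
  by_cases hi : n + 2 ≤ i + k
  · rw [dl, mul_assoc, (h.comm (n - k) i (by omega) (by omega) h2).eq, ← mul_assoc,
      ih k (by omega) i (by omega) hi h2, mul_assoc]
  · have hi' : i = n + 1 - k := by omega
    rcases k with _ | k
    · omega
    have hi2 : i = (n - (k + 1)) + 1 := by omega
    have hi3 : n - k = (n - (k + 1)) + 1 := by omega
    have hc := commute_x_dl h (n - (k + 1)) k (by omega) (by omega)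
    have hb := h.braid (n - (k + 1)) (by omega) (by omega)
    have hi4 : i - 1 = n - (k + 1) := by omega
    rw [hi4, dl, dl, hi3, hi2]
    set y := x (n - (k + 1)) with hy
    set z := x (n - (k + 1) + 1) with hz
    calc dl x n k * z * y * z = dl x n k * (z * y * z) := by simp only [mul_assoc]
      _ = dl x n k * (y * z * y) := by rw [hb]
      _ = dl x n k * y * z * y := by simp only [mul_assoc]
      _ = y * dl x n k * z * y := by rw [← hc.eq]
      _ = y * (dl x n k * z * y) := by simp only [mul_assoc]

theorem dl_mul_F (k a l : ℕ) (hk : k ≤ n) (h1 : n + 1 ≤ a + k) (h2 : l = 0 ∨ a + 2 * l ≤ n + 1) :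
    dl x n k * F x (a + 1) l = F x a l * dl x n k := by
  induction l with
  | zero => simp [F]
  | succ l ih =>
    rw [F, ← mul_assoc, ih (by omega), mul_assoc, dl_mul_x h k _ hk (by omega) (by omega), F,
      mul_assoc, show a + 1 + 2 * l - 1 = a + 2 * l by omega]

theorem prefix_eq (j : ℕ) (hj : j + 1 ≤ n) :
    alt (E x n) (E x (n - 1)) (j + 1) =
      alt (E x (n - 2)) (E x (n - 1)) j * E x (n - 2 - j) * dl x n (j + 1) := by
  induction j with
  | zero =>
    simp only [alt, dl, one_mul, mul_one, Nat.sub_zero]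
    exact E_pred x n (by omega)
  | succ j ih =>
    set l := (j + 1) / 2 with hl
    have hR : (if Even (j + 1) then E x n else E x (n - 1)) =
        E x (n - 1 - j) * F x (n - j + 1) l := by
      have := E_add_two_mul x (n - 1 - j) l
      rw [show n - j + 1 = n - 1 - j + 2 by omega, ← this]
      by_cases he : Even (j + 1)
      · rw [if_pos he]
        obtain ⟨m, hm⟩ := he
        congr 1; omega
      · rw [if_neg he]
        rw [Nat.not_even_iff_odd] at he
        obtain ⟨m, hm⟩ := he
        congr 1; omega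
    have hL : (if Even j then E x (n - 2) else E x (n - 1)) =
        E x (n - 2 - j) * F x (n - j) l := by
      have := E_add_two_mul x (n - 2 - j) l
      rw [show n - j = n - 2 - j + 2 by omega, ← this]
      by_cases he : Even j
      · rw [if_pos he]
        obtain ⟨m, hm⟩ := he
        congr 1; omega
      · rw [if_neg he]
        rw [Nat.not_even_iff_odd] at he
        obtain ⟨m, hm⟩ := he
        congr 1; omega
    have e1 : E x (n - 1 - j) = E x (n - 3 - j) * x (n - (j + 1)) := by
      rw [E_pred x (n - 1 - j) (by omega)]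
      congr 2 <;> omega
    have c1 : E x (n - 3 - j) * dl x n (j + 1) = dl x n (j + 1) * E x (n - 3 - j) :=
      (commute_E_dl h _ _ (by omega)).eq
    have c2 : dl x n (j + 2) * F x (n - j + 1) l = F x (n - j) l * dl x n (j + 2) :=
      dl_mul_F h (j + 2) (n - j) l (by omega) (by omega) (by omega)
    have c3 : E x (n - 3 - j) * F x (n - j) l = F x (n - j) l * E x (n - 3 - j) :=
      (commute_E_F h _ _ _ (by omega) (by omega)).eq
    have d2 : dl x n (j + 2) = dl x n (j + 1) * x (n - (j + 1)) := rfl
    rw [alt_succ', ih (by omega), hR, alt_succ' _ _ j, hL, e1, show n - 2 - (j + 1) = n - 3 - j by omega]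
    calc alt (E x (n - 2)) (E x (n - 1)) j * E x (n - 2 - j) * dl x n (j + 1) *
          (E x (n - 3 - j) * x (n - (j + 1)) * F x (n - j + 1) l)
        = alt (E x (n - 2)) (E x (n - 1)) j * E x (n - 2 - j) *
          ((dl x n (j + 1) * E x (n - 3 - j)) * x (n - (j + 1)) * F x (n - j + 1) l) := by
          simp only [mul_assoc]
      _ = alt (E x (n - 2)) (E x (n - 1)) j * E x (n - 2 - j) *
          (E x (n - 3 - j) * ((dl x n (j + 1) * x (n - (j + 1))) * F x (n - j + 1) l)) := by
          rw [← c1]; simp only [mul_assoc]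
      _ = alt (E x (n - 2)) (E x (n - 1)) j * E x (n - 2 - j) *
          ((E x (n - 3 - j) * F x (n - j) l) * dl x n (j + 2)) := by
          rw [← d2, c2]; simp only [mul_assoc]
      _ = alt (E x (n - 2)) (E x (n - 1)) j * (E x (n - 2 - j) * F x (n - j) l) *
          E x (n - 3 - j) * dl x n (j + 1 + 1) := by
          rw [c3]; simp only [mul_assoc]

theorem alt_top (hn : 1 ≤ n) :
    alt (E x n) (E x (n - 1)) n = alt (E x (n - 2)) (E x (n - 1)) (n - 1) * dl x n n := by
  have := prefix_eq h (n - 1) (by omega)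
  rw [show n - 1 + 1 = n by omega, show n - 2 - (n - 1) = 0 by omega] at this
  simpa [E] using this

theorem alt_one (hn : 1 ≤ n) :
    alt (E x n) (E x (n - 1)) (n + 1) = alt (E x (n - 2)) (E x (n - 1)) n * dl x n n := by
  rw [alt_succ', alt_top h hn]
  have hR : (if Even n then E x n else E x (n - 1)) = F x 2 (n / 2) := by
    have := E_add_two_mul x 0 (n / 2)
    rw [show E x 0 = (1 : G) from rfl, one_mul, zero_add, zero_add] at this
    rw [← this]
    by_cases he : Even n
    · rw [if_pos he]
      obtain ⟨m, hm⟩ := he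
      congr 1; omega
    · rw [if_neg he]
      rw [Nat.not_even_iff_odd] at he
      obtain ⟨m, hm⟩ := he
      congr 1; omega
  have hc : dl x n n * F x 2 (n / 2) = F x 1 (n / 2) * dl x n n :=
    dl_mul_F h n 1 (n / 2) le_rfl (by omega) (by omega)
  have hL : (if Even (n - 1) then E x (n - 2) else E x (n - 1)) = F x 1 (n / 2) := by
    rcases Nat.lt_or_ge n 2 with h2 | h2
    · have : n = 1 := by omega
      subst this
      simp [E, F]
    have := F_one x (n / 2 - 1)
    rw [show n / 2 - 1 + 1 = n / 2 by omega] at this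
    rw [this]
    by_cases he : Even (n - 1)
    · rw [if_pos he]
      obtain ⟨m, hm⟩ := he
      congr 1; omega
    · rw [if_neg he]
      rw [Nat.not_even_iff_odd] at he
      obtain ⟨m, hm⟩ := he
      congr 1; omega
  rw [hR, mul_assoc, hc, ← mul_assoc]
  congr 1
  conv_rhs => rw [show n = n - 1 + 1 by omega]
  rw [alt_succ']
  rw [show n - 1 + 1 - 2 = n - 2 by omega, show n - 1 + 1 - 1 = n - 1 by omega, hL]

theorem alt_two (hn : 1 ≤ n) :
    alt (E x (n - 1)) (E x n) (n + 1) = alt (E x (n - 1)) (E x (n - 2)) n * dl x n n := by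
  rw [alt_succ, alt_top h hn, ← mul_assoc, ← alt_succ]
  congr 2
  omega

end

/-- The bipartite identity. -/
theorem bip {x : ℕ → G} {n : ℕ} (h : BraidA x n) :
    alt (E x n) (E x (n - 1)) (n + 1) = alt (E x (n - 1)) (E x n) (n + 1) := by
  induction n with
  | zero => simp [alt, E]
  | succ n ih =>
    rw [alt_one h (by omega), alt_two h (by omega)]
    congr 1
    have := ih (h.mono (by omega))
    simpa using this.symm

end Vale.Agent.P203.Unf
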