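import Vale.Agent.P203.Unf.Graph
import Mathlib.Analysis.SpecialFunctions.Trigonometric.Basic

/-! P203, block ALG-UNF, part 4: the arrows of the unfolding graph (`Arr`, `src`, `tgt`, `rev`),
their number between two vertices, and the Perron-Frobenius weights `eta`. -/

set_option linter.all false

namespace Vale.Agent.P203.Unf

open Finset

variable {S : Type*} (M : CoxeterMatrix S)

/-- the vertices of the unfolding graph -/
abbrev Vtx : Type _ := S × Idx M

/-- the arrows of the (doubled) unfolding graph: `nadj x y` arrows from `x` to `y`. -/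
def Arr : Type _ := {p : (Vtx M × Vtx M) × Fin 2 // (p.2 : ℕ) < nadj p.1.1 p.1.2}

variable {M}

namespace Arr

/-- source -/
def src (a : Arr M) : Vtx M := a.1.1.1
/-- target -/
def tgt (a : Arr M) : Vtx M := a.1.1.2
/-- the opposite arrow -/
def rev (a : Arr M) : Arr M := ⟨((a.1.1.2, a.1.1.1), a.1.2), by rw [nadj_symm]; exact a.2⟩

@[simp] theorem src_rev (a : Arr M) : a.rev.src = a.tgt := rfl
@[simp] theorem tgt_rev (a : Arr M) : a.rev.tgt = a.src := rfl
@[simp] theorem rev_rev (a : Arr M) : a.rev.rev = a := rfl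

theorem fst_ne (a : Arr M) : a.src.1 ≠ a.tgt.1 := by
  intro h
  have h2 : 0 < nadj a.src a.tgt := lt_of_le_of_lt (Nat.zero_le _) a.2
  have h3 : nadj (a.src.1, a.src.2) (a.src.1, a.tgt.2) = 0 := nadj_same _ _ _
  have h4 : a.tgt = (a.src.1, a.tgt.2) := Prod.ext h.symm rfl
  rw [h4] at h2
  change 0 < nadj (a.src.1, a.src.2) (a.src.1, a.tgt.2) at h2
  omega

theorem src_ne_tgt (a : Arr M) : a.src ≠ a.tgt := fun h => a.fst_ne (by rw [h])

theorem rev_ne (a : Arr M) : a.rev ≠ a := by
  intro h
  exact a.src_ne_tgt (by conv_lhs => rw [← h, src_rev])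

end Arr

instance [Finite S] [Finite (Idx M)] : Finite (Arr M) := by
  unfold Arr; infer_instance

noncomputable instance [Finite S] [Finite (Idx M)] : Fintype (Arr M) := Fintype.ofFinite _

theorem nadj_le_two (x y : Vtx M) : nadj x y ≤ 2 := nadj_lt x y

/-- The arrows from `x` to `y`. -/
def arrEquiv (x y : Vtx M) : {a : Arr M // a.src = x ∧ a.tgt = y} ≃ Fin (nadj x y) where
  toFun a := ⟨a.1.1.2, by
    have h := a.1.2
    have h1 : a.1.1.1.1 = x := a.2.1
    have h2 : a.1.1.1.2 = y := a.2.2
    rwa [h1, h2] at h⟩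
  invFun c := ⟨⟨((x, y), ⟨c, lt_of_lt_of_le c.2 (nadj_le_two x y)⟩), c.2⟩, rfl, rfl⟩
  left_inv a := by
    rcases a with ⟨⟨⟨⟨x', y'⟩, c⟩, h⟩, h1, h2⟩
    cases h1
    cases h2
    rfl
  right_inv c := rfl

section weights

variable [Fintype (Sym2 S)]

/-- The weights of the unfolding. -/
noncomputable def eta (i : Idx M) : ℝ :=
  ∏ e : Sym2 S, Real.sin (Real.pi * ((i e : ℕ) + 1) / ((mm M e : ℝ) + 2))

theorem eta_pos (i : Idx M) : 0 < eta i := by
  refine Finset.prod_pos fun e _ => ?_
  have h := (i e).isLt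
  have h1 : ((i e : ℕ) : ℝ) + 1 < (mm M e : ℝ) + 2 := by exact_mod_cast (by omega)
  apply Real.sin_pos_of_pos_of_lt_pi
  · have := Real.pi_pos
    positivity
  · rw [div_lt_iff₀ (by positivity)]
    exact mul_lt_mul_of_pos_left h1 Real.pi_pos

theorem sum_sin (N : ℕ) (a : Fin N) :
    ∑ v : Fin N, (if (a : ℕ) + 1 = v ∨ (v : ℕ) + 1 = a then
      Real.sin (Real.pi * ((v : ℕ) + 1) / ((N : ℝ) + 1)) else 0) =
      2 * Real.cos (Real.pi / ((N : ℝ) + 1)) *
        Real.sin (Real.pi * ((a : ℕ) + 1) / ((N : ℝ) + 1)) := by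
  set g : ℕ → ℝ := fun k => Real.sin (Real.pi * ((k : ℝ) + 1) / ((N : ℝ) + 1)) with hg
  have hN : (N : ℝ) + 1 ≠ 0 := by positivity
  have h1 : ∑ v : Fin N, (if (a : ℕ) + 1 = v ∨ (v : ℕ) + 1 = a then g v else 0) =
      ∑ k ∈ range N, ((if (a : ℕ) + 1 = k then g k else 0) +
        (if k + 1 = (a : ℕ) then g k else 0)) := by
    rw [← Fin.sum_univ_eq_sum_range (fun k => (if (a : ℕ) + 1 = k then g k else 0) +
        (if k + 1 = (a : ℕ) then g k else 0))]
    refine Finset.sum_congr rfl fun v _ => ?_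
    by_cases h : (a : ℕ) + 1 = v
    · have h' : ¬ ((v : ℕ) + 1 = a) := by omega
      simp [h, h']
    · by_cases h' : (v : ℕ) + 1 = a
      · simp [h, h']
      · simp [h, h']
  have h2 : ∑ k ∈ range N, (if (a : ℕ) + 1 = k then g k else 0) = g (a + 1) := by
    rw [Finset.sum_ite_eq]
    by_cases h : (a : ℕ) + 1 ∈ range N
    · rw [if_pos h]
    · rw [if_neg h]
      rw [mem_range] at h
      have h3 : (a : ℕ) + 1 = N := by have := a.isLt; omega
      have h4 : (((a : ℕ) + 1 : ℕ) : ℝ) = N := by rw [h3]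
      simp only [hg]
      rw [h4, mul_div_assoc, div_self hN, mul_one, Real.sin_pi]
  have h3 : ∑ k ∈ range N, (if k + 1 = (a : ℕ) then g k else 0) =
      Real.sin (Real.pi * (a : ℕ) / ((N : ℝ) + 1)) := by
    rcases Nat.eq_zero_or_pos (a : ℕ) with h0 | h0
    · rw [h0]
      simp
    · obtain ⟨b, hb⟩ : ∃ b, (a : ℕ) = b + 1 := ⟨a - 1, by omega⟩
      rw [hb]
      have : ∀ k, (if k + 1 = b + 1 then g k else 0) = (if b = k then g k else 0) := by
        intro k
        by_cases h : b = k
        · simp [h]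
        · have : ¬ (k + 1 = b + 1) := by omega
          rw [if_neg this, if_neg h]
      simp only [this]
      rw [Finset.sum_ite_eq, if_pos (by rw [mem_range]; have := a.isLt; omega)]
      simp only [hg]
      push_cast
      rfl
  rw [h1, Finset.sum_add_distrib, h2, h3]
  simp only [hg]
  have e1 : Real.pi * ((((a : ℕ) + 1 : ℕ) : ℝ) + 1) / ((N : ℝ) + 1) =
      Real.pi * (((a : ℕ) : ℝ) + 1) / ((N : ℝ) + 1) + Real.pi / ((N : ℝ) + 1) := by
    push_cast; field_simp
  have e2 : Real.pi * ((a : ℕ) : ℝ) / ((N : ℝ) + 1) =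
      Real.pi * (((a : ℕ) : ℝ) + 1) / ((N : ℝ) + 1) - Real.pi / ((N : ℝ) + 1) := by
    field_simp; ring
  rw [e1, e2, Real.sin_add, Real.sin_sub]
  ring

/-- `c_st = 2 cos (π / m_st)`, and `2` for `m_st = ∞` (coded as `0`). -/
noncomputable def cst (M : CoxeterMatrix S) (s t : S) : ℝ :=
  if M s t = 0 then 2 else 2 * Real.cos (Real.pi / (M s t))

theorem sum_nadj_eta [Fintype (Idx M)] {s t : S} (hst : s ≠ t) (i : Idx M) :
    ∑ j : Idx M, (nadj (s, i) (t, j) : ℝ) * eta j = cst M s t * eta i := by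
  classical
  unfold cst
  by_cases h0 : M s t = 0
  · rw [if_pos h0]
    have : ∀ j : Idx M, (nadj (s, i) (t, j) : ℝ) * eta j = if i = j then 2 * eta j else 0 := by
      intro j
      unfold nadj
      rw [if_pos h0]
      by_cases h : i = j
      · simp [h]
      · simp [h]
    simp only [this]
    rw [Finset.sum_ite_eq]
    simp
  · rw [if_neg h0]
    have hm1 : M s t ≠ 1 := M.off_diagonal s t hst
    set e := s(s, t) with he
    have hmm : M s t = mm M e + 2 := by rw [he, mm_mk]; omega
    set w : ∀ e' : Sym2 S, Fin (mm M e' + 1) → ℝ := fun e' v =>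
      Real.sin (Real.pi * ((v : ℕ) + 1) / ((mm M e' : ℝ) + 2)) with hw
    have heta : ∀ j : Idx M, eta j = w e (j e) * ∏ e' ∈ univ.erase e, w e' (j e') := by
      intro j
      exact (Finset.mul_prod_erase univ (fun e' => w e' (j e')) (mem_univ e)).symm
    have hup : ∀ v, eta (Function.update i e v) =
        w e v * ∏ e' ∈ univ.erase e, w e' (i e') := by
      intro v
      rw [heta]
      congr 1
      · simp
      · refine Finset.prod_congr rfl fun e' he' => ?_
        rw [Function.update_of_ne (Finset.ne_of_mem_erase he')]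
    have hsum : ∑ j : Idx M, (nadj (s, i) (t, j) : ℝ) * eta j =
        ∑ v : Fin (mm M e + 1), (nadj (s, i) (t, Function.update i e v) : ℝ) *
          eta (Function.update i e v) := by
      rw [← Finset.sum_image (s := univ) (g := fun v => Function.update i e v)
        (f := fun j : Idx M => (nadj (s, i) (t, j) : ℝ) * eta j)
        (fun v _ v' _ h => Function.update_injective i e h)]
      refine (Finset.sum_subset (Finset.subset_univ _) fun j _ hj => ?_).symm
      have : ¬ Adj1 s(s, t) i j := by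
        intro h
        apply hj
        rw [mem_image]
        refine ⟨j e, mem_univ _, ?_⟩
        funext e'
        by_cases h' : e' = e
        · subst h'; simp
        · rw [Function.update_of_ne h']; exact h.1 e' h'
      simp [nadj, h0, this]
    have hn : ∀ v : Fin (mm M e + 1), (nadj (s, i) (t, Function.update i e v) : ℝ) =
        if ((i e : ℕ) + 1 = v ∨ (v : ℕ) + 1 = (i e : ℕ)) then 1 else 0 := by
      intro v
      have : Adj1 s(s, t) i (Function.update i e v) ↔
          ((i e : ℕ) + 1 = v ∨ (v : ℕ) + 1 = (i e : ℕ)) := by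
        unfold Adj1
        rw [← he]
        constructor
        · rintro ⟨-, h⟩
          simpa using h
        · intro h
          refine ⟨fun e' he' => by rw [Function.update_of_ne he'], ?_⟩
          simpa using h
      simp [nadj, h0, this]
    have hs := sum_sin (mm M e + 1) (i e)
    have hcast : ((mm M e + 1 : ℕ) : ℝ) + 1 = (mm M e : ℝ) + 2 := by push_cast; ring
    rw [hcast] at hs
    rw [hsum, heta i, hmm]
    push_cast
    rw [← mul_assoc]
    rw [show (2 * Real.cos (Real.pi / ((mm M e : ℝ) + 2)) * w e (i e)) =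
      ∑ v : Fin (mm M e + 1), (if ((i e : ℕ) + 1 = v ∨ (v : ℕ) + 1 = (i e : ℕ)) then
        w e v else 0) from hs.symm, Finset.sum_mul]
    refine Finset.sum_congr rfl fun v _ => ?_
    rw [hn, hup]
    split_ifs <;> simp

/-- sum over the arrows from `(s, i)` to the fibre of `t`. -/
theorem sum_arr_eta [Finite S] [Fintype (Idx M)] [DecidableEq S] [DecidableEq (Vtx M)] {s t : S}
    (hst : s ≠ t) (i : Idx M) :
    ∑ a ∈ (univ : Finset (Arr M)).filter (fun a => a.src = (s, i) ∧ a.tgt.1 = t),
      eta a.tgt.2 = cst M s t * eta i := by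
  classical
  haveI : Fintype S := Fintype.ofFinite S
  rw [← sum_nadj_eta hst i]
  rw [← Finset.sum_fiberwise_of_maps_to (s := (univ : Finset (Arr M)).filter
    (fun a => a.src = (s, i) ∧ a.tgt.1 = t)) (t := (univ : Finset (Idx M)))
    (g := fun a => a.tgt.2) (fun a _ => mem_univ _)]
  refine Finset.sum_congr rfl fun j _ => ?_
  have h1 : ∀ a ∈ ((univ : Finset (Arr M)).filter
      (fun a => a.src = (s, i) ∧ a.tgt.1 = t)).filter (fun a => a.tgt.2 = j),
      eta a.tgt.2 = eta j := by
    intro a ha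
    rw [mem_filter] at ha
    rw [ha.2]
  rw [Finset.sum_congr rfl h1, Finset.sum_const, nsmul_eq_mul]
  congr 2
  have h2 : ((univ : Finset (Arr M)).filter
      (fun a => a.src = (s, i) ∧ a.tgt.1 = t)).filter (fun a => a.tgt.2 = j) =
      (univ : Finset (Arr M)).filter (fun a => a.src = (s, i) ∧ a.tgt = (t, j)) := by
    ext a
    simp only [mem_filter, mem_univ, true_and, Prod.ext_iff, and_assoc]
  rw [h2, ← Fintype.card_subtype, Fintype.card_congr (arrEquiv (s, i) (t, j)), Fintype.card_fin]

end weights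

end Vale.Agent.P203.Unf
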