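import Vale.Agent.P203.Mod.Basic
import Vale.Agent.P203.Unf.Weights

/-! P203, block ALG-UNF, part 6: the unfolding graph as an `FGraph` (block MOD). -/

set_option linter.all false

namespace Vale.Agent.P203.Unf

open Finset

variable {S : Type} (M : CoxeterMatrix S)

/-- The unfolding graph, folded over `S`. -/
noncomputable def unfGraph : Mod.FGraph S (Vtx M) (Fin 2) where
  π x := x.1
  adj x y l := decide ((l : ℕ) < nadj x y)
  symm {x y l} h := by rw [nadj_symm]; exact h
  indep {x y l} h := by
    intro h'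
    have h1 : (l : ℕ) < nadj x y := of_decide_eq_true h
    have h2 : nadj (x.1, x.2) (x.1, y.2) = 0 := nadj_same _ _ _
    have h3 : y = (x.1, y.2) := Prod.ext h'.symm rfl
    rw [h3] at h1
    change (l : ℕ) < nadj (x.1, x.2) (x.1, y.2) at h1
    omega

@[simp] theorem unfGraph_π (x : Vtx M) : (unfGraph M).π x = x.1 := rfl

theorem unfGraph_adj (x y : Vtx M) (l : Fin 2) :
    (unfGraph M).adj x y l = true ↔ (l : ℕ) < nadj x y := by
  simp [unfGraph]

/-- the darts from `(s, i)` into the fibre over `t`: weighted count. -/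
theorem sum_Nb_eta [Fintype (Sym2 S)] [Fintype (Vtx M)] [DecidableEq (Vtx M)] [Fintype (Idx M)]
    [DecidableEq S] {s t : S} (hst : s ≠ t) (i : Idx M) :
    ∑ p ∈ (univ : Finset ((unfGraph M).Nb (s, i))).filter (fun p => p.1.1.1 = t),
      eta p.1.1.2 = cst M s t * eta i := by
  classical
  rw [← sum_nadj_eta hst i]
  rw [← Finset.sum_fiberwise_of_maps_to (s := (univ : Finset ((unfGraph M).Nb (s, i))).filter
    (fun p => p.1.1.1 = t)) (t := (univ : Finset (Idx M)))
    (g := fun p => p.1.1.2) (fun a _ => mem_univ _)]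
  refine Finset.sum_congr rfl fun j _ => ?_
  have h1 : ∀ p ∈ ((univ : Finset ((unfGraph M).Nb (s, i))).filter
      (fun p => p.1.1.1 = t)).filter (fun p => p.1.1.2 = j),
      eta p.1.1.2 = eta j := by
    intro p hp
    rw [mem_filter] at hp
    rw [hp.2]
  rw [Finset.sum_congr rfl h1, Finset.sum_const, nsmul_eq_mul]
  congr 2
  have h2 : ((univ : Finset ((unfGraph M).Nb (s, i))).filter
      (fun p => p.1.1.1 = t)).filter (fun p => p.1.1.2 = j) =
      (univ : Finset ((unfGraph M).Nb (s, i))).filter (fun p => p.1.1 = (t, j)) := by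
    ext p
    simp only [mem_filter, mem_univ, true_and, Prod.ext_iff]
  rw [h2, ← Fintype.card_subtype]
  have e : {p : (unfGraph M).Nb (s, i) // p.1.1 = (t, j)} ≃ Fin (nadj (s, i) (t, j)) :=
    { toFun := fun p => ⟨p.1.1.2, by
        have h := (unfGraph_adj M _ _ _).1 p.1.2
        rwa [p.2] at h⟩
      invFun := fun c => ⟨⟨((t, j), ⟨c, lt_of_lt_of_le c.2 (nadj_le_two _ _)⟩),
        (unfGraph_adj M _ _ _).2 c.2⟩, rfl⟩
      left_inv := by
        rintro ⟨⟨⟨y, c⟩, h⟩, h1⟩
        simp only at h1
        subst h1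
        rfl
      right_inv := fun c => rfl }
  rw [Fintype.card_congr e, Fintype.card_fin]

/-- no dart from `x` to `y` iff `nadj x y = 0`. -/
theorem nadj_eq_zero_iff (x y : Vtx M) :
    nadj x y = 0 ↔ ∀ l : Fin 2, (unfGraph M).adj x y l = false := by
  constructor
  · intro h l
    rw [← Bool.not_eq_true, unfGraph_adj, h]
    omega
  · intro h
    have := h 0
    rw [← Bool.not_eq_true, unfGraph_adj] at this
    simpa using this

/-- exactly one dart from `x` to `y` iff `nadj x y = 1`. -/
theorem nadj_eq_one_iff (x y : Vtx M) :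
    nadj x y = 1 ↔ (unfGraph M).adj x y 0 = true ∧ (unfGraph M).adj x y 1 = false := by
  rw [← Bool.not_eq_true, unfGraph_adj, unfGraph_adj]
  simp
  omega

end Vale.Agent.P203.Unf
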