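import Vale.Agent.P203.Unf.Bip
import Mathlib.Data.Finset.NoncommProd

/-! P203, block ALG-UNF, part 2: products of commuting elements over finite sets and alternating
products of them. -/

set_option linter.all false

namespace Vale.Agent.P203.Unf

open Finset

variable {G : Type*} [Monoid G] {ι κ : Type*}

/-- the product of the `f i`, `i ∈ T`, in some order (used when they commute). -/
noncomputable def fprod (T : Finset ι) (f : ι → G) : G := (T.toList.map f).prod

theorem fprod_eq (T : Finset ι) (f : ι → G) (h : (T : Set ι).Pairwise (Function.onFun Commute f)) :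
    fprod T f = T.noncommProd f h := by
  unfold fprod Finset.noncommProd
  have : T.1.map f = ((T.toList.map f : List G) : Multiset G) := by
    rw [← Multiset.map_coe, Finset.coe_toList]
  simp only [this]
  rw [Multiset.noncommProd_coe]

theorem fprod_congr {T : Finset ι} {f g : ι → G} (h : ∀ i ∈ T, f i = g i) :
    fprod T f = fprod T g := by
  unfold fprod
  congr 1
  exact List.map_congr_left fun i hi => h i (by simpa using hi)

theorem fprod_empty (f : ι → G) : fprod ∅ f = 1 := by simp [fprod]

theorem fprod_singleton (a : ι) (f : ι → G) : fprod {a} f = f a := by simp [fprod]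

theorem pairwise_of {T : Finset ι} {f : ι → G} (h : ∀ i ∈ T, ∀ j ∈ T, Commute (f i) (f j)) :
    (T : Set ι).Pairwise (Function.onFun Commute f) := fun i hi j hj _ => h i hi j hj

theorem commute_fprod {T : Finset ι} {f : ι → G} {g : G} (h : ∀ i ∈ T, Commute g (f i)) :
    Commute g (fprod T f) := by
  unfold fprod
  apply Commute.list_prod_right
  intro a ha
  simp only [List.mem_map, Finset.mem_toList] at ha
  obtain ⟨i, hi, rfl⟩ := ha
  exact h i hi

theorem fprod_commute {T : Finset ι} {U : Finset κ} {f : ι → G} {g : κ → G}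
    (h : ∀ i ∈ T, ∀ j ∈ U, Commute (f i) (g j)) : Commute (fprod T f) (fprod U g) :=
  commute_fprod fun j hj => (commute_fprod fun i hi => (h i hi j hj).symm).symm

theorem fprod_insert [DecidableEq ι] {T : Finset ι} {f : ι → G} {a : ι} (ha : a ∉ T)
    (h : ∀ i ∈ insert a T, ∀ j ∈ insert a T, Commute (f i) (f j)) :
    fprod (insert a T) f = f a * fprod T f := by
  rw [fprod_eq _ _ (pairwise_of h), Finset.noncommProd_insert_of_notMem _ _ _ _ ha,
    fprod_eq T f (pairwise_of fun i hi j hj => h i (by simp [hi]) j (by simp [hj]))]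

theorem fprod_union [DecidableEq ι] {T U : Finset ι} {f : ι → G} (hd : Disjoint T U)
    (h : ∀ i ∈ T ∪ U, ∀ j ∈ T ∪ U, Commute (f i) (f j)) :
    fprod (T ∪ U) f = fprod T f * fprod U f := by
  rw [fprod_eq _ _ (pairwise_of h), Finset.noncommProd_union_of_disjoint hd,
    fprod_eq T f (pairwise_of fun i hi j hj => h i (by simp [hi]) j (by simp [hj])),
    fprod_eq U f (pairwise_of fun i hi j hj => h i (by simp [hi]) j (by simp [hj]))]

theorem fprod_map {T : Finset ι} (e : ι ↪ κ) (f : κ → G)
    (h : ∀ i ∈ T, ∀ j ∈ T, Commute (f (e i)) (f (e j))) :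
    fprod (T.map e) f = fprod T fun i => f (e i) := by
  have h1 : ∀ i ∈ T.map e, ∀ j ∈ T.map e, Commute (f i) (f j) := by
    intro i hi j hj
    simp only [Finset.mem_map] at hi hj
    obtain ⟨i, hi, rfl⟩ := hi
    obtain ⟨j, hj, rfl⟩ := hj
    exact h i hi j hj
  rw [fprod_eq _ _ (pairwise_of h1), fprod_eq T (fun i => f (e i)) (pairwise_of h)]
  unfold Finset.noncommProd
  simp only [Finset.map_val, Multiset.map_map, Function.comp_def]

theorem fprod_mul {T : Finset ι} {f g : ι → G} (hf : ∀ i ∈ T, ∀ j ∈ T, Commute (f i) (f j))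
    (hg : ∀ i ∈ T, ∀ j ∈ T, Commute (g i) (g j))
    (hgf : ∀ i ∈ T, ∀ j ∈ T, i ≠ j → Commute (g i) (f j)) :
    fprod T (fun i => f i * g i) = fprod T f * fprod T g := by
  have h : ∀ i ∈ T, ∀ j ∈ T, Commute (f i * g i) (f j * g j) := by
    intro i hi j hj
    by_cases hij : i = j
    · subst hij; exact Commute.refl _
    · exact ((hf i hi j hj).mul_right (hgf j hj i hi (Ne.symm hij)).symm).mul_left
        ((hgf i hi j hj hij).mul_right (hg i hi j hj))
  rw [fprod_eq _ _ (pairwise_of h), fprod_eq _ _ (pairwise_of hf), fprod_eq _ _ (pairwise_of hg)]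
  exact Finset.noncommProd_mul_distrib f g _ _ fun i hi j hj hij => hgf i hi j hj hij

theorem alt_commute {u v w : G} (hu : Commute u w) (hv : Commute v w) (n : ℕ) :
    Commute (alt u v n) w := by
  induction n generalizing u v with
  | zero => exact Commute.one_left _
  | succ n ih => exact hu.mul_left (ih hv hu)

/-- alternating products of products of two commuting families. -/
theorem alt_mul {a b c d : G} (h1 : Commute a c) (h2 : Commute a d) (h3 : Commute b c)
    (h4 : Commute b d) (k : ℕ) : alt (a * c) (b * d) k = alt a b k * alt c d k := by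
  induction k generalizing a b c d with
  | zero => simp [alt]
  | succ k ih =>
    have hc : Commute (alt b a k) c := alt_commute h3 h1 k
    rw [alt_succ, ih h4 h3 h2 h1, alt_succ, alt_succ]
    simp only [mul_assoc]
    rw [← mul_assoc c, ← hc.eq]
    simp only [mul_assoc]

theorem alt_fprod {T : Finset ι} {f g : ι → G} (hf : ∀ i ∈ T, ∀ j ∈ T, Commute (f i) (f j))
    (hg : ∀ i ∈ T, ∀ j ∈ T, Commute (g i) (g j))
    (hgf : ∀ i ∈ T, ∀ j ∈ T, i ≠ j → Commute (g i) (f j)) (k : ℕ) :
    alt (fprod T f) (fprod T g) k = fprod T fun i => alt (f i) (g i) k := by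
  classical
  induction T using Finset.induction_on with
  | empty =>
    simp only [fprod_empty]
    induction k with
    | zero => rfl
    | succ k ih => simp [alt, ih]
  | @insert a T ha ih =>
    have hfa : ∀ i ∈ T, Commute (f a) (f i) := fun i hi => hf a (by simp) i (by simp [hi])
    have hga : ∀ i ∈ T, Commute (g a) (g i) := fun i hi => hg a (by simp) i (by simp [hi])
    have hgfa : ∀ i ∈ T, Commute (g a) (f i) := fun i hi =>
      hgf a (by simp) i (by simp [hi]) (by rintro rfl; exact ha hi)
    have hfga : ∀ i ∈ T, Commute (f a) (g i) := fun i hi =>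
      (hgf i (by simp [hi]) a (by simp) (by rintro rfl; exact ha hi)).symm
    have key : ∀ (n : ℕ) (u v : G) (u' v' : G), Commute u u' → Commute u v' → Commute v u' →
        Commute v v' → Commute (alt u v n) (alt u' v' n) := by
      intro n u v u' v' h1 h2 h3 h4
      exact (alt_commute (alt_commute h1 h3 n).symm (alt_commute h2 h4 n).symm n).symm
    rw [fprod_insert ha hf, fprod_insert ha hg, alt_mul (commute_fprod hfa) (commute_fprod hfga)
      (commute_fprod hgfa) (commute_fprod hga), ih, fprod_insert ha]
    · intro i hi j hj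
      by_cases hij : i = j
      · subst hij; exact Commute.refl _
      · exact key k _ _ _ _ (hf i hi j hj) (hgf j hj i hi (Ne.symm hij)).symm
          (hgf i hi j hj hij) (hg i hi j hj)
    · exact fun i hi j hj => hf i (by simp [hi]) j (by simp [hj])
    · exact fun i hi j hj => hg i (by simp [hi]) j (by simp [hj])
    · exact fun i hi j hj hij => hgf i (by simp [hi]) j (by simp [hj]) hij

end Vale.Agent.P203.Unf
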